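import Vale.Agent.P301W.Rows
import Vale.Agent.P272.K.INT.Part

/-!
# P301W: rows LOC and BACK
-/

open scoped Manifold ContDiff Topology Matrix
open Filter Set
open Vale.Agent.P272.K Vale.Agent.P299.IX Vale.Agent.P299.IX.Fock
open Vale.Agent.P281Z (Mf)
open Vale.Agent.P281Z.Hg Vale.Agent.P301Z.Lat Vale.Agent.P301W

noncomputable section

namespace Vale.Agent.P301W93

theorem tr_diff {d : ℕ} {V : Mf d} {e e' : Chart d V.X} {x : V.X} (h : At e x) (h' : At e' x) :
    DifferentiableAt ℝ (fun z => e' (e.symm z)) (e x) :=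
  ((INT.transition_contDiffAt h h').restrict_scalars ℝ).differentiableAt (by simp)

/-- row LOC -/
theorem loc : LOC := by
  intro d k t ht V U K a hU hK hKU ha
  have := INT.isManifold_real d V.X
  obtain ⟨χ, h0, h1, -⟩ := exists_contMDiffMap_zero_one_nhds_of_isClosed 𝓘(ℝ, Cm d) (n := ⊤)
    hU.isClosed_compl hK (disjoint_compl_left_iff_subset.2 hKU)
  obtain ⟨T, hT⟩ := ht.lin
  have hχ := INT.smoothFn_of_contMDiff χ.contMDiff
  have h2 : ∀ x, x ∉ U → ∀ᶠ y in 𝓝 x, χ y = 0 := fun x hx =>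
    h0.filter_mono (nhds_le_nhdsSet hx)
  obtain ⟨u, hu⟩ := (g1T d V.X).mkf (fun e z => χ (e.symm z) • t (a e z))
    (fun e x h => by
      by_cases hx : x ∈ U
      · simp only [← hT]
        exact (hχ e x h).smul (T.contDiff.contDiffAt.comp _ (ha.smooth e x h hx))
      · refine (contDiffAt_const (c := 0)).congr_of_eventuallyEq
          (G2H.ev_at h ((h2 x hx).mono fun y hy he => ?_))
        simp only [he.left_inv, hy, zero_smul])
    fun e e' x h h' => by
      rw [h.left_inv, h'.left_inv]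
      by_cases hx : x ∈ U
      · rw [ha.change e e' x h h' hx, ht.ch _ _ _ (tr_diff h h'), Matrix.mulVec_smul]
        rfl
      · rw [(h2 x hx).self_of_nhds, zero_smul, zero_smul, Matrix.mulVec_zero]
  refine ⟨u, interior {y | χ y = 1} ∩ U, ext_F fun e x h => ?_, isOpen_interior.inter hU,
    subset_inter (subset_interior_iff_mem_nhdsSet.2 h1) hKU, inter_subset_right,
    fun e x h hx => ?_⟩
  · rw [(dR_real V).dg k u e x h, (hu e x h).self_of_nhds]
    simp only [Matrix.mulVec_smul, ht.dg]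
  · rw [(hu e x h).self_of_nhds]
    simp only [h.left_inv, mem_setOf.1 (interior_subset hx.1), one_smul]

/-- row BACK -/
theorem back : BACK := by
  intro d k t ht V u hu
  obtain ⟨F, h1, h2⟩ := ht.inv
  have h3 : ∀ e x, At e x →
      t (F (vl u e (e x))) = vl ((2 : ℂ)⁻¹ • (u + (dR V).cj u)) e (e x) := fun e x h => by
    rw [h2, ← (dR_real V).dg k u e x h, hu, vl_smul, vl_add, (dR_real V).cj u e x h]
  refine ⟨fun e z => F (vl u e z), ⟨fun e x h _ =>
    F.contDiff.contDiffAt.comp _ ((vl_isF u).sm e x h), fun e e' x h h' _ => ?_⟩, h3⟩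
  rw [← h1 (F (vl u e (e x))), h3 e x h, (vl_isF _).ch e e' x h h', ← h3 e' x h', jt,
    ← ht.ch _ _ _ (tr_diff h h'), h1]

end Vale.Agent.P301W93
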