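import Vale.Agent.P301W93.Alt
import Vale.Agent.P301W.Rows
import Vale.Agent.P301Z.Lat.Pwb
import Vale.Agent.P281Z.Hg.F1a

/-!
# P301: the top power of a two-form as a sum over permutations
-/

open scoped Matrix
open Vale.Agent.P272.K Vale.Agent.P299.IX Vale.Agent.P299.IX.Fock
open Vale.Agent.P281Z.Hg Vale.Agent.P301Z.Lat

noncomputable section

namespace Vale.Agent.P301W93

open Equiv

variable {d : ℕ}

/-- exterior multiplication as a linear map -/
def epsL (n : ℕ) : (Fin n → ℂ) →ₗ[ℂ] FM n := ⟨⟨epsV, epsV_add⟩, epsV_smul⟩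

/-- the real basis of `ℂᵈ` -/
def bs (p : Fin d × Fin 2) : Cm d := Pi.single p.1 (Complex.I ^ (p.2 : ℕ))

/-- the dual basis `dx_j`, `dy_j` -/
def db (p : Fin d × Fin 2) : Fin (d + d) → ℂ :=
  (2 : ℂ)⁻¹ • (((-Complex.I) ^ (p.2 : ℕ)) • Pi.single (hl p.1) 1 +
    (Complex.I ^ (p.2 : ℕ)) • Pi.single (ah p.1) 1)

theorem cx_hl (w : Cm d) (j : Fin d) : cx w (hl j) = w j := by simp [cx, hl]

theorem cx_ah (w : Cm d) (j : Fin d) : cx w (ah j) = star (w j) := Fin.addCases_right j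

theorem epsV_db (p : Fin d × Fin 2) : epsV (db p) =
    (2 : ℂ)⁻¹ • (((-Complex.I) ^ (p.2 : ℕ)) • eps (hl p.1) +
      (Complex.I ^ (p.2 : ℕ)) • eps (ah p.1)) := by
  rw [db, epsV_smul, epsV_add, epsV_smul, epsV_smul, epsV_single, epsV_single]

theorem eps_eq (a : Fin (d + d)) : eps a = ∑ p, cx (bs p) a • epsV (db p) := by
  rw [Fintype.sum_prod_type]
  refine Fin.addCases (motive := fun a => eps a = ∑ j, ∑ k, cx (bs (j, k)) a • epsV (db (j, k)))
    (fun j => ?_) (fun j => ?_) a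
  · change eps (hl j) = ∑ i, ∑ k, cx (bs (i, k)) (hl j) • epsV (db (i, k))
    rw [Finset.sum_eq_single j (fun i _ hi => by simp [cx_hl, bs, hi.symm]) (by simp)]
    simp only [cx_hl, bs, Pi.single_eq_same, Fin.sum_univ_two, epsV_db, Fin.val_zero, Fin.val_one,
      pow_zero, pow_one]
    match_scalars
    · linear_combination (1 / 2 : ℂ) * Complex.I_mul_I
    · linear_combination (-1 / 2 : ℂ) * Complex.I_mul_I
  · change eps (ah j) = ∑ i, ∑ k, cx (bs (i, k)) (ah j) • epsV (db (i, k))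
    rw [Finset.sum_eq_single j (fun i _ hi => by simp [cx_ah, bs, hi.symm]) (by simp)]
    simp only [cx_ah, bs, Pi.single_eq_same, Fin.sum_univ_two, epsV_db, Fin.val_zero, Fin.val_one,
      pow_zero, pow_one, map_one, Complex.star_def, Complex.conj_I]
    match_scalars
    · linear_combination (1 / 2 : ℂ) * Complex.I_mul_I
    · linear_combination (-1 / 2 : ℂ) * Complex.I_mul_I

theorem wg_tw {n : ℕ} (B : Mx n) : wg (tw B) = ∑ a, ∑ b, (B a b / 2) • (eps a * eps b) := by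
  simp only [tw, F1aH.wg_sum, F1aH.wg_smul, F1aH.wg_eps, F1aH.wg_ev, Matrix.mul_one]

theorem wg_tw_db (B : Mx (d + d)) : wg (tw B) = ∑ p, ∑ q,
    ((∑ a, ∑ b, cx (bs p) a * cx (bs q) b * B a b) / 2) • (epsL _ (db p) * epsL _ (db q)) := by
  rw [wg_tw]
  calc ∑ a, ∑ b, (B a b / 2) • (eps a * eps b)
      = ∑ a, ∑ b, ∑ p, ∑ q, (cx (bs p) a * cx (bs q) b * B a b / 2) •
          (epsV (db p) * epsV (db q)) := by
        refine Finset.sum_congr rfl fun a _ => Finset.sum_congr rfl fun b _ => ?_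
        rw [eps_eq a, eps_eq b, Finset.sum_mul_sum, Finset.smul_sum]
        refine Finset.sum_congr rfl fun p _ => ?_
        rw [Finset.smul_sum]
        refine Finset.sum_congr rfl fun q _ => ?_
        rw [smul_mul_smul_comm, smul_smul]
        congr 1
        ring
    _ = _ := by
        simp only [Finset.sum_div, Finset.sum_smul]
        rw [Finset.sum_congr rfl fun a _ => Finset.sum_comm, Finset.sum_comm]
        refine Finset.sum_congr rfl fun p _ => ?_
        rw [Finset.sum_congr rfl fun a _ => Finset.sum_comm, Finset.sum_comm]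
        rfl

theorem Lw_one : Lw (1 : Mx d) =
    ∑ j, (2 : ℂ) • (epsL _ (db (j, (0 : Fin 2))) * epsL _ (db (j, (1 : Fin 2)))) := by
  refine Finset.sum_congr rfl fun j _ => ?_
  rw [Finset.sum_eq_single j (fun i _ hi => by simp [Matrix.one_apply_ne hi.symm]) (by simp)]
  change _ = (2 : ℂ) • (epsV _ * epsV _)
  simp only [epsV_db, Fin.val_zero, Fin.val_one, pow_zero, pow_one, one_smul, smul_mul_assoc,
    mul_smul_comm, add_mul, mul_add, Fock.eps_sq, eps_eps (ah j) (hl j), Matrix.one_apply_eq]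
  module

theorem Bq_smul {n : ℕ} (c : ℂ) (M : FM n) :
    Bq (ev ∅) ((c • M) *ᵥ ev ∅) = c * Bq (ev ∅) (M *ᵥ ev ∅) := by
  rw [Bq, Bq, Matrix.smul_mulVec, Matrix.mulVec_smul, dotProduct_smul, smul_eq_mul]

/-- the top power of a two-form on the real basis -/
theorem top_eq (B : Mx (d + d)) :
    (2 ^ d : ℂ)⁻¹ * ∑ σ : Perm (Fin d × Fin 2), ((Perm.sign σ : ℤ) : ℂ) *
      ∏ i, ∑ a, ∑ b, cx (bs (σ (i, 0))) a * cx (bs (σ (i, 1))) b * B a b =
      (d.factorial : ℂ) * 2 ^ d * pw (tw B) := by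
  have h1 := Pwb.tc_ne d
  rw [pw, wg_tw_db, pow_two_form _ epsV_sq, Bq_smul]
  rw [tc, Lw_one, pow_std _ epsV_sq, Bq_smul] at h1 ⊢
  have h3 := inv_ne_zero h1
  rw [inv_inv] at h3
  simp only [Finset.prod_div_distrib, Finset.prod_const, Finset.card_univ,
    Fintype.card_fin, ← mul_div_assoc, ← Finset.sum_div]
  have h4 : (d.factorial : ℂ) ≠ 0 := left_ne_zero_of_mul (left_ne_zero_of_mul h3)
  have h5 := right_ne_zero_of_mul h3
  field_simp

open Vale.Agent.P301W

theorem bas_eq (p : Fin d × Fin 2) : bas p = bs p := by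
  obtain ⟨j, k⟩ := p
  fin_cases k <;> simp [bas, bs]

theorem sum_cv (p : Fin d × Fin 2) (φ : Cm d → ℂ) : ∑ a, cx (bs p) a * cv a φ = φ (bs p) := by
  obtain ⟨j, k⟩ := p
  rw [Fin.sum_univ_add]
  change ∑ i, cx (bs (j, k)) (hl i) * cv (hl i) φ + ∑ i, cx (bs (j, k)) (ah i) * cv (ah i) φ = _
  rw [Finset.sum_eq_single j (fun i _ hi => by simp [cx_hl, bs, hi]) (by simp),
    Finset.sum_eq_single j (fun i _ hi => by simp [cx_ah, bs, hi]) (by simp), cx_hl, cx_ah, cv, cv,
    hl, ah, Fin.addCases_left, Fin.addCases_right]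
  fin_cases k
  · simp [bs]
    ring
  · simp [bs]
    linear_combination (-φ (Pi.single j Complex.I)) * Complex.I_mul_I

theorem sum_cm (a : Alt d 2) (p q : Fin d × Fin 2) :
    ∑ x, ∑ y, cx (bs p) x * cx (bs q) y * cm a x y = ((a ![bs p, bs q] : ℝ) : ℂ) := by
  rw [Finset.sum_comm, ← sum_cv q fun v => ((a ![bs p, v] : ℝ) : ℂ)]
  refine Finset.sum_congr rfl fun y _ => ?_
  rw [← sum_cv p fun u => cv y fun v => ((a ![u, v] : ℝ) : ℂ), Finset.mul_sum]
  exact Finset.sum_congr rfl fun x _ => by rw [cm, Matrix.of_apply]; ring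

/-- the top power with its constant -/
theorem top_t2 (a : Alt d 2) :
    ((top a : ℝ) : ℂ) = (d.factorial : ℂ) * 2 ^ d * pw (t2 a) := by
  rw [t2, ← top_eq, top]
  simp only [sum_cm, bas_eq]
  push_cast
  rfl

/-- row TOPP -/
theorem topp : TOPP := fun d =>
  ⟨d.factorial * 2 ^ d, by positivity, fun a => by rw [top_t2]; push_cast; rfl⟩

end Vale.Agent.P301W93
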