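import Vale.Agent.P301W.Rows

/-!
# P301W: row WE1, from a Čech - de Rham zigzag of real forms to an integral form
-/

open scoped Manifold ContDiff Topology Matrix
open Filter Set Metric
open Vale.Agent.P272.K Vale.Agent.P299.IX Vale.Agent.P299.IX.Fock
open Vale.Agent.P281Z (Mf)
open Vale.Agent.P281Z.Hg Vale.Agent.P301Z.Lat Vale.Agent.P301W

noncomputable section

namespace Vale.Agent.P301W93

variable {d : ℕ} {V : Mf d}

/-- the function of a `0`-form -/
def fn0 (f : Chart d V.X → Cm d → Alt d 0) (x : V.X) : ℝ :=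
  f (chartAt (Cm d) x) (chartAt (Cm d) x x) ![]

theorem fn0_eq {U : Set V.X} {f : Chart d V.X → Cm d → Alt d 0} (hf : IsForm U f)
    {e : Chart d V.X} {x : V.X} (h : At e x) (hx : x ∈ U) : f e (e x) ![] = fn0 f x := by
  rw [hf.change e _ x h (Vale.Agent.P301Z.Lat.at_chart x) hx,
    ContinuousAlternatingMap.compContinuousLinearMap_apply]
  exact congrArg _ (Subsingleton.elim _ _)

theorem fn0_cont {U : Set V.X} {f : Chart d V.X → Cm d → Alt d 0} (hU : IsOpen U)
    (hf : IsForm U f) {x : V.X} (hx : x ∈ U) : ContinuousAt (fn0 f) x := by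
  have h := Vale.Agent.P301Z.Lat.at_chart x
  have h1 : ContinuousAt (fun y => f (chartAt (Cm d) x) (chartAt (Cm d) x y) ![]) x :=
    (continuous_eval_const (![] : Fin 0 → Cm d)).continuousAt.comp
      ((hf.smooth _ x h hx).continuousAt.comp ((chartAt (Cm d) x).continuousAt h.2))
  refine h1.congr ?_
  filter_upwards [hU.mem_nhds hx, (chartAt (Cm d) x).open_source.mem_nhds h.2] with y hy hy'
  exact fn0_eq hf ⟨h.1, hy'⟩ hy

theorem ev_const {Y : Type} [TopologicalSpace Y] {g : Y → ℝ} {p : Y} (h : ContinuousAt g p)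
    (hi : ∀ᶠ y in 𝓝 p, ∃ m : ℤ, g y = m) : ∀ᶠ y in 𝓝 p, g y = g p := by
  obtain ⟨m, hm⟩ := hi.self_of_nhds
  filter_upwards [hi, h.eventually (ball_mem_nhds (g p) one_pos)] with y ⟨k, hk⟩ hy
  rw [hk, hm, Real.dist_eq] at hy
  have h1 : |k - m| < 1 := by exact_mod_cast hy
  rw [hk, hm, sub_eq_zero.1 (Int.abs_lt_one_iff.1 h1)]

theorem scale {Y ι : Type} [MetricSpace Y] [CompactSpace Y] {U : ι → Set Y}
    (hU : ∀ i, IsOpen (U i)) (hc : ∀ x, ∃ i, x ∈ U i) {g : ι → ι → ι → Y → ℝ}
    (hg : ∀ i j k p, p ∈ U i → p ∈ U j → p ∈ U k →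
      (∃ m : ℤ, g i j k p = m) ∧ ContinuousAt (g i j k) p) :
    ∃ (ε : ℝ) (i : Y → ι) (n : Y → Y → Y → ℤ), 0 < ε ∧ (∀ x, closedBall x ε ⊆ U (i x)) ∧
      ∀ x y z w, dist x w < ε → dist y w < ε → dist z w < ε →
        g (i x) (i y) (i z) w = n x y z := by
  obtain ⟨t, ht⟩ := isCompact_univ.elim_finite_subcover U hU fun x _ => mem_iUnion.2 (hc x)
  obtain ⟨r, hr, h1⟩ := lebesgue_number_lemma_of_metric (c := fun i : t => U i) isCompact_univ
    (fun i => hU i) fun x hx => by simpa using ht hx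
  choose i hi using fun x => h1 x (mem_univ x)
  have h2 : ∀ p : Y, ∀ᶠ z in 𝓝 p, z ∈ ball p (r / 2) ∧
      ∀ a b c : t, p ∈ U a → p ∈ U b → p ∈ U c → g a b c z = g a b c p := fun p =>
    Eventually.and (ball_mem_nhds p (half_pos hr))
      (eventually_all.2 fun a => eventually_all.2 fun b => eventually_all.2 fun c =>
        eventually_imp_distrib_left.2 fun ha => eventually_imp_distrib_left.2 fun hb =>
          eventually_imp_distrib_left.2 fun hc => ev_const (hg a b c p ha hb hc).2 (by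
            filter_upwards [(hU a).mem_nhds ha, (hU b).mem_nhds hb, (hU c).mem_nhds hc]
              with y h1 h2 h3 using (hg a b c y h1 h2 h3).1))
  choose W hW hWo hWp using fun p => _root_.eventually_nhds_iff.1 (h2 p)
  obtain ⟨δ, hδ, h3⟩ := lebesgue_number_lemma_of_metric isCompact_univ hWo
    fun x _ => mem_iUnion.2 ⟨x, hWp x⟩
  choose p hp using fun x => h3 x (mem_univ x)
  have h4 : ∀ x y, dist x y < r / 2 → p x ∈ U (i y) := fun x y h => hi y (by
    have := (hW _ x (hp x (mem_ball_self hδ))).1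
    rw [mem_ball] at this ⊢
    linarith [dist_triangle_left (p x) y x])
  have h5 := min_le_right δ (r / 4)
  refine ⟨min δ (r / 4), fun x => i x, fun x y z => ⌊g (i x) (i y) (i z) (p x)⌋, by positivity,
    fun x => (closedBall_subset_ball (by linarith)).trans (hi x), fun x y z w hx hy hz => ?_⟩
  have h6 := h4 x x (by simpa using hr)
  have h7 := h4 x y (by linarith [dist_triangle_right x y w])
  have h8 := h4 x z (by linarith [dist_triangle_right x z w])
  obtain ⟨m, hm⟩ := (hg _ _ _ _ h6 h7 h8).1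
  rw [(hW _ w (hp x (mem_ball'.2 (hx.trans_le (min_le_left _ _))))).2 _ _ _ h6 h7 h8]
  simp only [hm, Int.floor_intCast]

/-- the zigzag -/
def gam {Y S : Type} [Zero S] (α : S) (G : Y → S) (H : Y → Y → S) : List Y → S
  | [] => α
  | [x] => G x
  | [x, y] => H x y
  | _ => 0

/-- the cochain -/
def coc {Y : Type} (n : Y → Y → Y → ℤ) : List Y → ℤ
  | [x, y, z] => n x y z
  | _ => 0

theorem d_loc {k : ℕ} {t : Alt d k → Fo d} {u : Fs V} {O : Set V.X}
    {a : Chart d V.X → Cm d → Alt d k} (hO : IsOpen O)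
    (h : ∀ e x, At e x → x ∈ O → vl u e (e x) = t (a e (e x))) {e : Chart d V.X} {w : V.X}
    (he : At e w) (hw : w ∈ O) :
    vl ((dR V).d u) e (e w) = dT (fun z => t (a e z)) (e w) := by
  rw [(dR_real V).d _ e w he]
  exact k1aT.congr (G2H.ev_at he ((hO.eventually_mem hw).mono fun y hy hey => h e y hey hy))

/-- row WE1 -/
theorem we1 : WE1 := by
  intro T d V a u hu ⟨ι, U, b, f, hU, hc, hb, hf, hW⟩
  let _ := ms V
  obtain ⟨ε, i, n, hε, hi, hn⟩ := scale hU hc
    (g := fun i j k x => fn0 (f i j) x + fn0 (f j k) x - fn0 (f i k) x) fun i j k p h1 h2 h3 => by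
      refine ⟨?_, ((fn0_cont ((hU i).inter (hU j)) (hf i j) ⟨h1, h2⟩).add
        (fn0_cont ((hU j).inter (hU k)) (hf j k) ⟨h2, h3⟩)).sub
          (fn0_cont ((hU i).inter (hU k)) (hf i k) ⟨h1, h3⟩)⟩
      exact (((hW _ p (Vale.Agent.P301Z.Lat.at_chart p) i h1).2 j h2).2 k h3)
  choose G O hG hO hKO hOU hGv using fun x =>
    T.loc d 1 t1 (T.t1 d) V _ _ (b (i x)) (hU _) isClosed_closedBall (hi x) (hb _)
  choose H O' hH hO' hKO' hOU' hHv using fun x y =>
    T.loc d 0 t0 (T.t0 d) V _ _ (f (i x) (i y)) ((hU _).inter (hU _))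
      (isClosed_closedBall.inter isClosed_closedBall) (inter_subset_inter (hi x) (hi y)) (hf _ _)
  have hm : ∀ {x w : V.X}, dist x w < ε → w ∈ closedBall x ε := fun h => mem_closedBall'.2 h.le
  obtain ⟨T1, hT1⟩ := (T.t1 d).lin
  refine ⟨ε, hε, coc fun x y z => -n x y z, gam u G fun x y => -H x y, rfl,
    fun l j h => ?_, fun l h => ?_, fun l h => ?_⟩
  · rcases l with _ | ⟨x, _ | ⟨y, _ | ⟨z, l⟩⟩⟩
    · obtain rfl : j = 2 := by simpa using h
      refine ext_F fun e x he => ?_
      rw [(dR_real V).dg 2 _ e x he]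
      exact (congrArg _ (hu e x he)).trans (((T.t2 d).dg _).trans (hu e x he).symm)
    · obtain rfl : j = 1 := by simp at h; omega
      exact hG x
    · obtain rfl : j = 0 := by simpa using h
      exact (map_neg _ _).trans (congrArg Neg.neg (hH x y))
    · exact map_zero _
  · rcases l with _ | ⟨x, _ | ⟨y, _ | ⟨z, l⟩⟩⟩
    · intro w _ e he
      simp only [gam, dl, sub_zero]
      rw [d_loc isOpen_univ (fun e x h _ => hu e x h) he trivial]
      exact (T.d2 d _ _ (a.2.1.diff he)).2 (a.2.2 e w he)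
    · intro w hw e he
      have hx := hKO x (hm (hw x (by simp)))
      simp only [gam, dl, sub_zero]
      rw [vl_sub, d_loc (hO x) (hGv x) he hx, T.d1 d _ _
        (((hb _).smooth e w he (hOU x hx)).differentiableAt (by simp)), hu e w he,
        (hW e w he _ (hOU x hx)).1, sub_self]
    · intro w hw e he
      have hx := hm (hw x (by simp))
      have hy := hm (hw y (by simp))
      have hxy := hKO' x y ⟨hx, hy⟩
      simp only [gam, dl, sub_zero, map_neg]
      rw [vl_sub, vl_sub, vl_neg, d_loc (hO' x y) (hHv x y) he hxy, T.d0 d _ _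
        (((hf _ _).smooth e w he (hOU' x y hxy)).differentiableAt (by simp)),
        ← ((hW e w he _ (hi x hx)).2 _ (hi y hy)).1, hGv x e w he (hKO x hx),
        hGv y e w he (hKO y hy), ← hT1, ← hT1, ← hT1, map_sub, neg_sub, sub_self]
    · simp at h
  · rcases l with _ | ⟨x, _ | ⟨y, _ | ⟨z, _ | ⟨z', l⟩⟩⟩⟩ <;> try (simp at h; done)
    intro w hw e he
    have hx := hw x (by simp)
    have hy := hw y (by simp)
    have hz := hw z (by simp)
    have h1 := congrArg (fun r : ℝ => (r : ℂ)) (hn x y z w hx hy hz)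
    simp only [gam, dl, sub_zero, zl, coc]
    rw [vl_sub, vl_sub, vl_sub, vl_neg, vl_neg, vl_neg, vl_smul,
      hHv x y e w he (hKO' x y ⟨hm hx, hm hy⟩), hHv x z e w he (hKO' x z ⟨hm hx, hm hz⟩),
      hHv y z e w he (hKO' y z ⟨hm hy, hm hz⟩), show vl (lc V).one e (e w) = ev ∅ from
        oneF_spec V e w he, t0, t0, t0, fn0_eq (hf _ _) he ⟨hi x (hm hx), hi y (hm hy)⟩,
      fn0_eq (hf _ _) he ⟨hi x (hm hx), hi z (hm hz)⟩,
      fn0_eq (hf _ _) he ⟨hi y (hm hy), hi z (hm hz)⟩]
    push_cast at h1 ⊢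
    rw [← h1]
    module

end Vale.Agent.P301W93
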