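import Vale.Agent.P301W93.We1

/-!
# P301W: row WE2, from an integral form to a Čech - de Rham zigzag of real forms
-/

open scoped Manifold ContDiff Topology Matrix
open Filter Set Metric
open Vale.Agent.P272.K Vale.Agent.P299.IX Vale.Agent.P299.IX.Fock
open Vale.Agent.P281Z (Mf)
open Vale.Agent.P281Z.Hg Vale.Agent.P301Z.Lat Vale.Agent.P301W

noncomputable section

namespace Vale.Agent.P301W93

variable {d : ℕ} {V : Mf d}

/-- the real part of a form at a point -/
def rp : Fo d →+ Fo d := AddMonoidHom.mk' (fun w => (2 : ℂ)⁻¹ • (w + cjv w)) fun u v => by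
  rw [f1b.cjv_add]
  module

theorem rp_real {w : Fo d} (h : cjv w = w) : rp w = w := by
  show (2 : ℂ)⁻¹ • (w + cjv w) = w
  rw [h]
  module

theorem back' (hb : BACK) {k : ℕ} {t : Alt d k → Fo d} (ht : Tk d k t) {v : Fs V}
    (hv : (dR V).dg k v = v) : ∃ a : Chart d V.X → Cm d → Alt d k, IsForm univ a ∧
      ∀ e x, At e x → t (a e (e x)) = rp (vl v e (e x)) ∧
        dT (fun z => t (a e z)) (e x) = rp (vl ((dR V).d v) e (e x)) := by
  obtain ⟨a, h1, h2⟩ := hb d k t ht V v hv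
  refine ⟨a, h1, fun e x h => ⟨?_, ?_⟩⟩
  · rw [h2 e x h, vl_smul, vl_add, (dR_real V).cj v e x h]
    rfl
  · rw [← d_loc isOpen_univ (fun e x h _ => (h2 e x h).symm) h trivial, map_smul, map_add,
      ← (dR_ok V).cjd, vl_smul, vl_add, (dR_real V).cj _ e x h]
    rfl

theorem Tk_inj {k : ℕ} {t : Alt d k → Fo d} (ht : Tk d k t) {a b : Alt d k} (h : t a = t b) :
    a = b := by
  obtain ⟨F, h1, -⟩ := ht.inv
  rw [← h1 a, h, h1]

theorem form_mono {k : ℕ} {a : Chart d V.X → Cm d → Alt d k} (h : IsForm univ a) (U : Set V.X) :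
    IsForm U a :=
  ⟨fun e x he _ => h.1 e x he trivial, fun e e' x he he' _ => h.2 e e' x he he' trivial⟩

/-- row WE2 -/
theorem we2 : WE2 := by
  intro T d V a u hu hI
  let _ := ms V
  obtain ⟨ε, hε, n, γ, h0, hZ⟩ := hI
  choose b hb hbv using fun x => back' T.back (T.t1 d) (hZ.deg [x] 1 rfl)
  choose f hf hfv using fun x y => back' T.back (T.t0 d) (hZ.deg [x, y] 0 rfl)
  obtain ⟨T1, hT1⟩ := (T.t1 d).lin
  refine ⟨V.X, fun x => ball x ε, b, fun x y => (-1 : ℝ) • f x y, fun _ => isOpen_ball,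
    fun x => ⟨x, mem_ball_self hε⟩, fun x => form_mono (hb x) _,
    fun x y => form_mono ((hf x y).smul _) _, fun e w he x hx => ⟨Tk_inj (T.t2 d) ?_,
      fun y hy => ⟨Tk_inj (T.t1 d) ?_, fun z hz => ⟨-n [x, y, z], ?_⟩⟩⟩⟩
  · have h1 := hZ.mid [x] (by simp) w (by simpa [Nr] using mem_ball'.1 hx) e he
    simp only [dl, sub_zero, h0] at h1
    rw [vl_sub, sub_eq_zero] at h1
    rw [← T.d1 d _ _ ((hb x).diff he), (hbv x e w he).2, h1, hu e w he, rp_real ((T.t2 d).cj _)]
  · have h1 := hZ.mid [x, y] (by simp) w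
      (by simpa [Nr] using ⟨mem_ball'.1 hx, mem_ball'.1 hy⟩) e he
    simp only [dl, sub_zero] at h1
    rw [vl_sub, vl_sub, sub_eq_zero] at h1
    beta_reduce
    rw [Pi.smul_apply, extDeriv_smul, ← hT1, ← hT1, map_sub, map_smul, hT1, hT1, hT1,
      ← T.d0 d _ _ ((hf x y).diff he), (hfv x y e w he).2, h1, map_sub, (hbv x e w he).1,
      (hbv y e w he).1, neg_one_smul, neg_sub]
  · have h1 := hZ.fin [x, y, z] rfl w
      (by simpa [Nr] using ⟨mem_ball'.1 hx, mem_ball'.1 hy, mem_ball'.1 hz⟩) e he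
    simp only [dl, sub_zero, zl] at h1
    rw [vl_sub, vl_sub, vl_sub, vl_smul, sub_eq_zero,
      show vl (lc V).one e (e w) = ev ∅ from oneF_spec V e w he] at h1
    have h2 := congrArg rp h1
    rw [map_sub, map_sub, ← (hfv x y e w he).1, ← (hfv x z e w he).1, ← (hfv y z e w he).1,
      rp_real (by rw [f1b.cjv_smul, f1b.cjv_ev, star_intCast])] at h2
    have h3 := congrFun h2 ∅
    simp only [t0, ev, Pi.sub_apply, Pi.smul_apply, Pi.single_eq_same, smul_eq_mul, mul_one] at h3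
    have h4 : f y z e (e w) ![] - (f x z e (e w) ![] - f x y e (e w) ![]) = n [x, y, z] := by
      exact_mod_cast h3
    simp only [Pi.smul_apply, ContinuousAlternatingMap.sub_apply,
      ContinuousAlternatingMap.add_apply, ContinuousAlternatingMap.smul_apply, smul_eq_mul,
      Int.cast_neg]
    linarith

end Vale.Agent.P301W93
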