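import Mathlib.LinearAlgebra.ExteriorAlgebra.Basic
import Mathlib.Analysis.Complex.Basic
import Mathlib.GroupTheory.Perm.Sign
import Mathlib.Data.Fintype.Perm

/-!
# P301: the top power of a two-form as a sum over permutations (algebraic part)
-/

noncomputable section

namespace Vale.Agent.P301W93

open Equiv

variable {A V : Type} [Ring A] [Algebra ℂ A] [AddCommGroup V] [Module ℂ V] {d : ℕ}

/-- the product of the pairs -/
def Q (ε : V →ₗ[ℂ] A) (v : Fin d × Fin 2 → V) : A :=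
  (List.ofFn fun i => ε (v (i, 0)) * ε (v (i, 1))).prod

theorem exists_alt (ε : V →ₗ[ℂ] A) (h : ∀ v, ε v * ε v = 0) :
    ∃ Ψ : V [⋀^(Fin d × Fin 2)]→ₗ[ℂ] A, ∀ v, Ψ v = Q ε v := by
  refine ⟨((ExteriorAlgebra.lift ℂ ⟨ε, h⟩).toLinearMap.compAlternatingMap
    (ExteriorAlgebra.ιMulti ℂ (d * 2))).domDomCongr finProdFinEquiv.symm, fun v => ?_⟩
  rw [AlternatingMap.domDomCongr_apply, LinearMap.compAlternatingMap_apply,
    ExteriorAlgebra.ιMulti_apply, AlgHom.toLinearMap_apply, map_list_prod, List.map_ofFn,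
    List.ofFn_mul, List.prod_flatten, List.map_ofFn, Q]
  congr 2
  funext i
  have e : ∀ (j : Fin 2) (hj : i.val * 2 + j.val < d * 2),
      finProdFinEquiv.symm (⟨i.val * 2 + j.val, hj⟩ : Fin (d * 2)) = (i, j) := by
    intro j hj
    rw [Equiv.symm_apply_eq]
    ext
    simp [finProdFinEquiv]
    ring
  simp only [Function.comp, ExteriorAlgebra.lift_ι_apply, e]
  simp

theorem pow_sum {κ : Type} [Fintype κ] (c : κ → ℂ) (E : κ → A) (d : ℕ) :
    (∑ k, c k • E k) ^ d = ∑ g : Fin d → κ, (∏ i, c (g i)) • (List.ofFn fun i => E (g i)).prod := by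
  rw [← MultilinearMap.mkPiAlgebraFin_apply_const (R := ℂ), MultilinearMap.map_sum]
  refine Finset.sum_congr rfl fun g _ => ?_
  rw [MultilinearMap.map_smul_univ, MultilinearMap.mkPiAlgebraFin_apply]

theorem sum_perm {κ : Type} [Fintype κ] [DecidableEq κ] (F : (κ → κ) → A)
    (h : ∀ g, ¬ Function.Injective g → F g = 0) : ∑ g, F g = ∑ σ : Perm κ, F σ := by
  refine (Fintype.sum_of_injective (fun σ : Perm κ => (σ : κ → κ)) DFunLike.coe_injective _ _
    (fun g hg => h g fun hi => hg ⟨Equiv.ofBijective g (Finite.injective_iff_bijective.1 hi), rfl⟩)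
    fun _ => rfl).symm

theorem pow_two_form (ε : V →ₗ[ℂ] A) (h : ∀ v, ε v * ε v = 0) (β : Fin d × Fin 2 → V)
    (a : Fin d × Fin 2 → Fin d × Fin 2 → ℂ) :
    (∑ p, ∑ q, a p q • (ε (β p) * ε (β q))) ^ d =
      (∑ σ : Perm (Fin d × Fin 2), ((Perm.sign σ : ℤ) : ℂ) * ∏ i, a (σ (i, 0)) (σ (i, 1))) •
        Q ε β := by
  obtain ⟨Ψ, hΨ⟩ := exists_alt (d := d) ε h
  rw [← Fintype.sum_prod_type', pow_sum]
  let e : (Fin d × Fin 2 → Fin d × Fin 2) ≃ (Fin d → (Fin d × Fin 2) × (Fin d × Fin 2)) :=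
    (Equiv.curry _ _ _).trans (Equiv.arrowCongr (Equiv.refl _) (finTwoArrowEquiv _))
  rw [← e.sum_comp]
  have h1 : ∀ g : Fin d × Fin 2 → Fin d × Fin 2,
      (∏ i, a (e g i).1 (e g i).2) • (List.ofFn fun i => ε (β (e g i).1) * ε (β (e g i).2)).prod =
        (∏ i, a (g (i, 0)) (g (i, 1))) • Ψ (β ∘ g) := fun g => by
    rw [hΨ]
    rfl
  rw [Finset.sum_congr rfl fun g _ => h1 g, sum_perm, Finset.sum_smul]
  · refine Finset.sum_congr rfl fun σ _ => ?_
    rw [AlternatingMap.map_perm, hΨ, Units.smul_def, ← Int.cast_smul_eq_zsmul ℂ, smul_smul,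
      mul_comm]
  · intro g hg
    rw [Ψ.map_eq_zero_of_not_injective _ fun hi => hg hi.of_comp, smul_zero]

theorem pow_std (ε : V →ₗ[ℂ] A) (h : ∀ v, ε v * ε v = 0) (β : Fin d × Fin 2 → V) :
    (∑ j, (2 : ℂ) • (ε (β (j, 0)) * ε (β (j, 1)))) ^ d =
      ((d.factorial : ℂ) * 2 ^ d) • Q ε β := by
  obtain ⟨Ψ, hΨ⟩ := exists_alt (d := d) ε h
  rw [pow_sum fun _ => (2 : ℂ)]
  have h1 : ∀ g : Fin d → Fin d,
      (∏ _i : Fin d, (2 : ℂ)) • (List.ofFn fun i => ε (β (g i, 0)) * ε (β (g i, 1))).prod =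
        (2 : ℂ) ^ d • Ψ (β ∘ Prod.map g id) := fun g => by
    rw [hΨ, Finset.prod_const, Finset.card_univ, Fintype.card_fin]
    rfl
  rw [Finset.sum_congr rfl fun g _ => h1 g, sum_perm]
  · have h2 : ∀ σ : Perm (Fin d), Ψ (β ∘ Prod.map σ id) = Q ε β := fun σ => by
      have := Ψ.map_perm β (Equiv.prodCongrLeft fun _ : Fin 2 => σ)
      rw [Perm.sign_prodCongrLeft, Fin.prod_univ_two, Int.units_mul_self, one_smul, hΨ β] at this
      exact this
    simp only [h2]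
    rw [Finset.sum_const, Finset.card_univ, Fintype.card_perm, Fintype.card_fin,
      ← Nat.cast_smul_eq_nsmul ℂ, smul_smul]
  · intro g hg
    rw [Ψ.map_eq_zero_of_not_injective _ fun hi => hg fun i j hij => ?_, smul_zero]
    exact congrArg Prod.fst (hi.of_comp (a₁ := (i, 0)) (a₂ := (j, 0)) (Prod.ext hij rfl))

end Vale.Agent.P301W93
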